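import Crest.Agent.R213.D.Ord
import Crest.Agent.R213.D.Oper

-- ▼ part R213/D/Taylor
section

/-!
# Row 213, part D2: Taylor remainders in `t` of functions smooth across `t = 0`
-/

set_option autoImplicit false

open Set Filter Topology

noncomputable section

namespace Crest.Agent.R213.D

/-- Taylor remainder in `t` of order `M` at `t = 0`. -/
def Rem (M : ℕ) (F : ℝ → ℝ → ℝ) : ℝ → ℝ → ℝ := fun t x =>
  F t x - ∑ j ∈ Finset.range M, t ^ j * ((dt^[j] F) 0 x / j.factorial)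

/-- the slab `(-s0, s0) × ℝ` -/
abbrev Slab (s0 : ℝ) : Set (ℝ × ℝ) := Ioo (-s0) s0 ×ˢ univ

lemma isOpen_slab (s0 : ℝ) : IsOpen (Slab s0) := isOpen_Ioo.prod isOpen_univ

section

variable {s0 : ℝ} {F : ℝ → ℝ → ℝ}

lemma iter_dt_sm {U : Set (ℝ × ℝ)} (hU : IsOpen U) : ∀ (j : ℕ) {F : ℝ → ℝ → ℝ}, SmU U F →
    SmU U (dt^[j] F)
  | 0, _, h => h
  | j + 1, F, h => by
    rw [Function.iterate_succ_apply]
    exact iter_dt_sm hU j (h.dt hU)

lemma iter_dt_congr {U : Set (ℝ × ℝ)} (hU : IsOpen U) : ∀ (j : ℕ) {F G : ℝ → ℝ → ℝ},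
    (∀ p ∈ U, F p.1 p.2 = G p.1 p.2) → ∀ p ∈ U, (dt^[j] F) p.1 p.2 = (dt^[j] G) p.1 p.2
  | 0, _, _, h => h
  | j + 1, F, G, h => by
    intro p hp
    rw [Function.iterate_succ_apply, Function.iterate_succ_apply]
    exact iter_dt_congr hU j (fun q hq => dt_congr (t := q.1) (x := q.2) hU h hq) p hp

lemma iter_dt_dX {U : Set (ℝ × ℝ)} (hU : IsOpen U) : ∀ (j : ℕ) {F : ℝ → ℝ → ℝ}, SmU U F →
    ∀ p ∈ U, (dt^[j] (dX F)) p.1 p.2 = dX (dt^[j] F) p.1 p.2
  | 0, _, _ => fun _ _ => rfl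
  | j + 1, F, h => by
    intro p hp
    rw [Function.iterate_succ_apply, Function.iterate_succ_apply]
    rw [iter_dt_congr hU j (F := dt (dX F)) (G := dX (dt F))
      (fun q hq => dt_dX_comm h hU (t := q.1) (x := q.2) hq) p hp]
    exact iter_dt_dX hU j (h.dt hU) p hp

lemma iter_dt_zero {V : Set ℝ} (hV : IsOpen V) {F : ℝ → ℝ → ℝ} {J : Set ℝ} (hJ : IsOpen J)
    (h : ∀ p ∈ J ×ˢ V, F p.1 p.2 = 0) (j : ℕ) : ∀ p ∈ J ×ˢ V, (dt^[j] F) p.1 p.2 = 0 := by
  intro p hp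
  rw [iter_dt_congr (hJ.prod hV) j (F := F) (G := fun _ _ => 0) h p hp]
  have : dt (fun _ _ => (0 : ℝ)) = fun _ _ => 0 := by funext t x; simp [dt]
  have h2 : ∀ j : ℕ, (dt^[j] (fun _ _ => (0 : ℝ))) = fun _ _ => 0 := by
    intro j
    induction j with
    | zero => rfl
    | succ j ih => rw [Function.iterate_succ_apply, this, ih]
  rw [h2]

/-- coefficient functions are smooth. -/
lemma coeff_smooth (hs0 : 0 < s0) (h : SmU (Slab s0) F) (j : ℕ) :
    ContDiff ℝ (⊤ : ℕ∞) (fun x => (dt^[j] F) 0 x) := by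
  have h1 := iter_dt_sm (isOpen_slab s0) j h
  rw [← contDiffOn_univ]
  have h2 : ContDiffOn ℝ (⊤ : ℕ∞) (fun x : ℝ => ((0 : ℝ), x)) univ :=
    (contDiff_const.prodMk contDiff_id).contDiffOn
  exact ContDiffOn.comp (g := fun p : ℝ × ℝ => (dt^[j] F) p.1 p.2) h1 h2
    (fun x _ => ⟨⟨by simpa using hs0, hs0⟩, mem_univ _⟩)

lemma Rem_sm (hs0 : 0 < s0) (h : SmU (Slab s0) F) : ∀ M : ℕ, SmU (Slab s0) (Rem M F) := by
  intro M
  have h1 : SmU (Slab s0) (fun t x =>
      ∑ j ∈ Finset.range M, t ^ j * ((dt^[j] F) 0 x / j.factorial)) := by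
    unfold SmU
    apply ContDiffOn.sum
    intro j _
    exact (smU_tpow j).mul (smU_of_x ((coeff_smooth hs0 h j).div_const _))
  exact h.sub h1

lemma Rem_succ (M : ℕ) (t x : ℝ) : Rem (M + 1) F t x = F t x -
    (∑ j ∈ Finset.range M, t ^ (j + 1) * ((dt^[j] (dt F)) 0 x / (j + 1).factorial) + F 0 x) := by
  simp only [Rem]
  rw [Finset.sum_range_succ']
  simp [Function.iterate_succ_apply]

lemma dt_Rem_succ (h : SmU (Slab s0) F) (M : ℕ) :
    ∀ p ∈ Slab s0, dt (Rem (M + 1) F) p.1 p.2 = Rem M (dt F) p.1 p.2 := by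
  rintro ⟨t, x⟩ hp
  have hd := h.hdt (isOpen_slab s0) hp
  have h1 : HasDerivAt (fun r => Rem (M + 1) F r x)
      (dt F t x - (∑ j ∈ Finset.range M, ((j + 1 : ℕ) * t ^ j) *
        ((dt^[j] (dt F)) 0 x / (j + 1).factorial) + 0)) t := by
    have e : (fun r => Rem (M + 1) F r x) = fun r => F r x -
        (∑ j ∈ Finset.range M, r ^ (j + 1) * ((dt^[j] (dt F)) 0 x / (j + 1).factorial) +
          F 0 x) := by
      funext r; exact Rem_succ M r x
    rw [e]
    refine hd.sub (HasDerivAt.add (HasDerivAt.fun_sum fun j _ => ?_) (hasDerivAt_const _ _))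
    have := (hasDerivAt_pow (j + 1) t).mul_const ((dt^[j] (dt F)) 0 x / (j + 1).factorial)
    simpa using this
  have h2 : dt (Rem (M + 1) F) t x = _ := h1.deriv
  rw [h2]
  simp only [Rem, add_zero]
  congr 1
  refine Finset.sum_congr rfl fun j _ => ?_
  rw [Nat.factorial_succ]
  have : ((j.factorial : ℕ) : ℝ) ≠ 0 := by exact_mod_cast j.factorial_ne_zero
  have h3 : ((j + 1 : ℕ) : ℝ) ≠ 0 := by exact_mod_cast Nat.succ_ne_zero j
  push_cast at h3 ⊢
  field_simp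

lemma dX_Rem (hs0 : 0 < s0) (h : SmU (Slab s0) F) (M : ℕ) :
    ∀ p ∈ Slab s0, dX (Rem M F) p.1 p.2 = Rem M (dX F) p.1 p.2 := by
  rintro ⟨t, x⟩ hp
  have hd := h.hdX (isOpen_slab s0) hp
  have h1 : HasDerivAt (fun y => Rem M F t y)
      (dX F t x - ∑ j ∈ Finset.range M, t ^ j * (dX (dt^[j] F) 0 x / j.factorial)) x := by
    refine hd.sub (HasDerivAt.fun_sum fun j _ => ?_)
    have h3 := (iter_dt_sm (isOpen_slab s0) j h).hdX (isOpen_slab s0) (t := 0) (x := x)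
      ⟨⟨by simpa using hs0, hs0⟩, mem_univ _⟩
    exact (h3.div_const _).const_mul _
  have h2 : dX (Rem M F) t x = _ := h1.deriv
  rw [h2]
  simp only [Rem]
  congr 1
  refine Finset.sum_congr rfl fun j _ => ?_
  rw [iter_dt_dX (isOpen_slab s0) j h (0, x) ⟨⟨by simpa using hs0, hs0⟩, mem_univ _⟩]

/-- smooth functions are bounded on compact boxes inside the slab. -/
lemma bd0_of_smU {s a b : ℝ} (hs : s < s0) (hs' : 0 < s0) (h : SmU (Slab s0) F) :
    Bd s (Ioo a b) 0 F := by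
  have hK : IsCompact (Icc (0 : ℝ) s ×ˢ Icc a b) := isCompact_Icc.prod isCompact_Icc
  obtain ⟨C, hC⟩ := hK.exists_bound_of_continuousOn (f := fun p : ℝ × ℝ => F p.1 p.2)
    (h.continuousOn.mono (by
      rintro ⟨t, x⟩ ⟨ht, _⟩
      exact ⟨⟨by simp only at ht ⊢; linarith [ht.1], ht.2.trans_lt hs⟩, mem_univ _⟩))
  refine ⟨|C|, abs_nonneg _, fun t ht x hx => ?_⟩
  have := hC (t, x) ⟨⟨ht.1.le, ht.2.le⟩, ⟨hx.1.le, hx.2.le⟩⟩
  rw [Real.norm_eq_abs] at this
  simpa using this.trans (le_abs_self C)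

/-- version of `bd_of_deriv` with a limit at `0`. -/
lemma bd_of_deriv' {s : ℝ} {M : ℕ} {f : ℝ → ℝ} {f' : ℝ → ℝ} {C : ℝ} (hC : 0 ≤ C)
    (hd : ∀ t ∈ Ioo 0 s, HasDerivAt f (f' t) t) (hf' : ∀ t ∈ Ioo 0 s, |f' t| ≤ C * t ^ M)
    (h0 : Tendsto f (𝓝[>] 0) (𝓝 0)) : ∀ t ∈ Ioo 0 s, |f t| ≤ C * t ^ (M + 1) := by
  intro t ht
  have key : ∀ r ∈ Ioo 0 t, |f t - f r| ≤ C * t ^ (M + 1) := by
    intro r hr
    have hsub : Icc r t ⊆ Ioo 0 s := fun y hy => ⟨hr.1.trans_le hy.1, hy.2.trans_lt ht.2⟩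
    have h1 : ‖f t - f r‖ ≤ C * t ^ M * ‖t - r‖ := by
      refine Convex.norm_image_sub_le_of_norm_hasDerivWithin_le (s := Icc r t) (f' := f')
        (fun y hy => (hd y (hsub hy)).hasDerivWithinAt) (fun y hy => ?_) (convex_Icc r t)
        (left_mem_Icc.2 hr.2.le) (right_mem_Icc.2 hr.2.le)
      rw [Real.norm_eq_abs]
      refine (hf' y (hsub hy)).trans ?_
      gcongr
      · exact (hsub hy).1.le
      · exact hy.2
    rw [Real.norm_eq_abs, Real.norm_eq_abs, abs_of_pos (sub_pos.2 hr.2)] at h1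
    have h4 : C * t ^ M * (t - r) ≤ C * t ^ M * t := by
      have : 0 ≤ C * t ^ M := mul_nonneg hC (pow_nonneg ht.1.le _)
      have hr0 := hr.1
      nlinarith
    calc |f t - f r| ≤ C * t ^ M * (t - r) := h1
      _ ≤ C * t ^ M * t := h4
      _ = C * t ^ (M + 1) := by ring
  have hlim : Tendsto (fun r : ℝ => |f t - f r|) (𝓝[>] 0) (𝓝 |f t - 0|) :=
    (h0.const_sub (f t)).abs
  have := le_of_tendsto hlim (by
    filter_upwards [Ioo_mem_nhdsGT ht.1] with r hr using key r hr)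
  simpa using this

lemma Rem_bd {s a b : ℝ} (hs0 : 0 < s0) (hs : s < s0) : ∀ (M : ℕ) {F : ℝ → ℝ → ℝ},
    SmU (Slab s0) F → Bd s (Ioo a b) M (Rem M F)
  | 0, F, h => by
    have : Rem 0 F = F := by funext t x; simp [Rem]
    rw [this]
    exact bd0_of_smU hs hs0 h
  | M + 1, F, h => by
    have hU := isOpen_slab s0
    obtain ⟨C, hC, hb⟩ := Rem_bd (a := a) (b := b) hs0 hs M (h.dt hU)
    refine ⟨C, hC, fun t ht x hx => ?_⟩
    have hmem : ∀ t ∈ Ioo (-s0) s0, (t, x) ∈ Slab s0 := fun t ht => ⟨ht, mem_univ _⟩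
    have hsub : Ioo 0 s ⊆ Ioo (-s0) s0 := Ioo_subset_Ioo (by linarith) hs.le
    refine bd_of_deriv' (f := fun r => Rem (M + 1) F r x) (f' := fun r => Rem M (dt F) r x)
      hC (fun r hr => ?_) (fun r hr => hb r hr x hx) ?_ t ht
    · have := (Rem_sm hs0 h (M + 1)).hdt hU (hmem r (hsub hr))
      rwa [dt_Rem_succ h M (r, x) (hmem r (hsub hr))] at this
    · have hc : ContinuousAt (fun r => Rem (M + 1) F r x) 0 :=
        ((Rem_sm hs0 h (M + 1)).hdt hU (hmem 0 ⟨by linarith, hs0⟩)).continuousAt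
      have e0 : Rem (M + 1) F 0 x = 0 := by
        rw [Rem_succ]; simp
      have := hc.tendsto.mono_left (nhdsWithin_le_nhds (s := Ioi 0))
      simpa [e0] using this

/-- **Taylor lemma**. -/
theorem ordN_Rem {s a b : ℝ} (hs0 : 0 < s0) (hs : s < s0) : ∀ (n M : ℕ) {F : ℝ → ℝ → ℝ},
    SmU (Slab s0) F → OrdN s (Ioo a b) M n (Rem M F) := by
  intro n
  have hU := isOpen_slab s0
  have hI : IsOpen (Ioo a b) := isOpen_Ioo
  have hsub : ∀ {s1 : ℝ}, s1 ≤ s → Ioo 0 s1 ×ˢ Ioo a b ⊆ Slab s0 := fun h1 =>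
    prod_mono (Ioo_subset_Ioo (by linarith) (by linarith)) (subset_univ _)
  induction n with
  | zero => intro M F h; exact Rem_bd hs0 hs M h
  | succ n ih =>
    intro M F h
    refine ⟨Rem_bd hs0 hs M h, ?_, ?_⟩
    · rcases M with _ | M
      · refine (ih 0 (h.X1 hU)).congr hI ?_
        rintro ⟨t, x⟩ hp
        have e1 : ∀ G : ℝ → ℝ → ℝ, Rem 0 G = G := fun G => by funext t x; simp [Rem]
        rw [e1, e1]
      · have h1 := OrdN.mul hI (M := 1) (N := M) (n := n) (F := fun t _ => t) smU_t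
          ((Rem_sm hs0 (h.dt hU) M).mono (hsub le_rfl)) ((ord_t (s := s) hI).bd n)
          (ih M (h.dt hU))
        rw [Nat.add_comm] at h1
        refine h1.congr hI ?_
        rintro ⟨t, x⟩ hp
        simp only [D.X1]
        rw [dt_Rem_succ h M (t, x) (hsub le_rfl hp)]
    · refine (ih M (h.dX hU)).congr hI ?_
      rintro ⟨t, x⟩ hp
      exact (dX_Rem hs0 h M (t, x) (hsub le_rfl hp)).symm

theorem ord_Rem {s a b : ℝ} (hs0 : 0 < s0) (hs : s < s0) (M : ℕ) (h : SmU (Slab s0) F) :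
    Ord s (Ioo a b) M (Rem M F) :=
  ⟨(Rem_sm hs0 h M).mono (prod_mono (Ioo_subset_Ioo (by linarith) hs.le) (subset_univ _)),
    fun n => ordN_Rem hs0 hs n M h⟩

theorem ord0_of_smU {s a b : ℝ} (hs0 : 0 < s0) (hs : s < s0) (h : SmU (Slab s0) F) :
    Ord s (Ioo a b) 0 F := by
  have := ord_Rem (a := a) (b := b) hs0 hs 0 h
  have e1 : Rem 0 F = F := by funext t x; simp [Rem]
  rwa [e1] at this

/-- a polynomial of degree `< N` which is `O(t^N)` vanishes. -/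
lemma poly_zero : ∀ (N : ℕ) (c : ℕ → ℝ) (C s : ℝ), 0 < s →
    (∀ t ∈ Ioo 0 s, |∑ j ∈ Finset.range N, t ^ j * c j| ≤ C * t ^ N) → ∀ j < N, c j = 0
  | 0, _, _, _, _, _ => fun j hj => absurd hj (Nat.not_lt_zero j)
  | N + 1, c, C, s, hs, h => by
    have h0 : c 0 = 0 := by
      have hc : Continuous fun t : ℝ => ∑ j ∈ Finset.range (N + 1), t ^ j * c j := by fun_prop
      have l1 : Tendsto (fun t : ℝ => |∑ j ∈ Finset.range (N + 1), t ^ j * c j|) (𝓝[>] 0)
          (𝓝 |∑ j ∈ Finset.range (N + 1), (0 : ℝ) ^ j * c j|) :=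
        ((hc.abs.tendsto 0)).mono_left nhdsWithin_le_nhds
      have hc2 : Continuous fun t : ℝ => C * t ^ (N + 1) := by fun_prop
      have l2 : Tendsto (fun t : ℝ => C * t ^ (N + 1)) (𝓝[>] 0) (𝓝 (C * 0 ^ (N + 1))) :=
        (hc2.tendsto 0).mono_left nhdsWithin_le_nhds
      have := le_of_tendsto_of_tendsto l1 l2 (by
        filter_upwards [Ioo_mem_nhdsGT hs] with t ht using h t ht)
      rw [Finset.sum_range_succ'] at this
      simp at this
      exact this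
    have h1 : ∀ t ∈ Ioo 0 s, |∑ j ∈ Finset.range N, t ^ j * c (j + 1)| ≤ C * t ^ N := by
      intro t ht
      have h2 := h t ht
      rw [Finset.sum_range_succ', h0] at h2
      have e : ∑ k ∈ Finset.range N, t ^ (k + 1) * c (k + 1) + t ^ 0 * 0 =
          t * ∑ j ∈ Finset.range N, t ^ j * c (j + 1) := by
        rw [Finset.mul_sum, mul_zero, add_zero]
        exact Finset.sum_congr rfl fun j _ => by ring
      rw [e, abs_mul, abs_of_pos ht.1] at h2
      have e2 : C * t ^ (N + 1) = t * (C * t ^ N) := by ring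
      rw [e2] at h2
      exact le_of_mul_le_mul_left h2 ht.1
    intro j hj
    rcases j with _ | j
    · exact h0
    · exact poly_zero N (fun j => c (j + 1)) C s hs h1 j (by omega)

/-- `O(t^N)` and smooth across `0` imply vanishing derivatives. -/
theorem vanish_of_bd {s x : ℝ} {N : ℕ} {C : ℝ} (hs0 : 0 < s0) (hs : 0 < s) (h : SmU (Slab s0) F)
    (hb : ∀ t ∈ Ioo 0 s, |F t x| ≤ C * t ^ N) : ∀ j < N, (dt^[j] F) 0 x = 0 := by
  set s' := min s (s0 / 2) with hs'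
  have hs'0 : 0 < s' := lt_min hs (by linarith)
  have hs's : s' < s0 := (min_le_right _ _).trans_lt (by linarith)
  obtain ⟨C', hC', hR⟩ := Rem_bd (a := x - 1) (b := x + 1) hs0 hs's N h
  have key := poly_zero N (fun j => (dt^[j] F) 0 x / j.factorial) (C + C') s' hs'0 (by
    intro t ht
    have h1 := hR t ht x ⟨by linarith, by linarith⟩
    have h2 := hb t ⟨ht.1, ht.2.trans_le (min_le_left _ _)⟩
    have e : ∑ j ∈ Finset.range N, t ^ j * ((dt^[j] F) 0 x / j.factorial) =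
        F t x - Rem N F t x := by simp [Rem]
    rw [e]
    calc |F t x - Rem N F t x| ≤ |F t x| + |Rem N F t x| := abs_sub _ _
      _ ≤ C * t ^ N + C' * t ^ N := add_le_add h2 h1
      _ = (C + C') * t ^ N := by ring)
  intro j hj
  have := key j hj
  have h3 : ((j.factorial : ℕ) : ℝ) ≠ 0 := by exact_mod_cast j.factorial_ne_zero
  simpa [h3] using this

end

end Crest.Agent.R213.D
end
end

-- ▼ part R213/D/Formal

/-!
# Row 213, part D2: the formal outer solution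
-/

set_option autoImplicit false

open Set Filter Topology

noncomputable section

namespace Crest.Agent.R213.D

/-! ### the initial profile -/

/-- cut-off: `0` for `x ≤ 1/32` and `x ≥ 3/4`, `1` on `[1/16, 1/2]`. -/
def lam (x : ℝ) : ℝ :=
  Real.smoothTransition (32 * (x - 1 / 32)) * (1 - Real.smoothTransition (4 * (x - 1 / 2)))

/-- `w` at `t = 0`. -/
def w0f (c : ℝ) (x : ℝ) : ℝ := lam x * (1 / (c * x) - 1 / x - 1 / (1 - x))

lemma lam_smooth : ContDiff ℝ (⊤ : ℕ∞) lam := by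
  unfold lam
  refine ContDiff.mul ?_ (contDiff_const.sub ?_)
  · exact Real.smoothTransition.contDiff.comp (contDiff_const.mul (contDiff_id.sub contDiff_const))
  · exact Real.smoothTransition.contDiff.comp (contDiff_const.mul (contDiff_id.sub contDiff_const))

lemma lam_nonneg (x : ℝ) : 0 ≤ lam x :=
  mul_nonneg (Real.smoothTransition.nonneg _) (sub_nonneg.2 (Real.smoothTransition.le_one _))

lemma lam_le_one (x : ℝ) : lam x ≤ 1 := by
  have h1 := Real.smoothTransition.le_one (32 * (x - 1 / 32))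
  have h2 := Real.smoothTransition.nonneg (32 * (x - 1 / 32))
  have h3 := Real.smoothTransition.le_one (4 * (x - 1 / 2))
  have h4 := Real.smoothTransition.nonneg (4 * (x - 1 / 2))
  unfold lam
  nlinarith

lemma lam_of_le {x : ℝ} (h : x ≤ 1 / 32) : lam x = 0 := by
  unfold lam
  rw [Real.smoothTransition.zero_of_nonpos (by linarith), zero_mul]

lemma lam_of_ge {x : ℝ} (h : 3 / 4 ≤ x) : lam x = 0 := by
  unfold lam
  rw [Real.smoothTransition.one_of_one_le (x := 4 * (x - 1 / 2)) (by linarith), sub_self, mul_zero]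

lemma lam_eq_one {x : ℝ} (h1 : 1 / 16 ≤ x) (h2 : x ≤ 1 / 2) : lam x = 1 := by
  unfold lam
  rw [Real.smoothTransition.one_of_one_le (x := 32 * (x - 1 / 32)) (by linarith),
    Real.smoothTransition.zero_of_nonpos (x := 4 * (x - 1 / 2)) (by linarith)]
  ring

lemma w0f_supp (c : ℝ) {x : ℝ} (h : x ∉ Icc (1 / 32 : ℝ) (3 / 4)) : w0f c x = 0 := by
  unfold w0f
  have : lam x = 0 := by
    rcases lt_or_ge x (1 / 32) with h1 | h1
    · exact lam_of_le h1.le
    · refine lam_of_ge ?_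
      by_contra h2
      exact h ⟨h1, (not_le.1 h2).le⟩
  rw [this, zero_mul]

lemma w0f_eq (c : ℝ) {x : ℝ} (h : x ∈ Icc (1 / 16 : ℝ) (1 / 2)) :
    w0f c x = 1 / (c * x) - 1 / x - 1 / (1 - x) := by
  unfold w0f; rw [lam_eq_one h.1 h.2, one_mul]

lemma w0f_smooth {c : ℝ} (hc : 0 < c) : ContDiff ℝ (⊤ : ℕ∞) (w0f c) := by
  rw [contDiff_iff_contDiffAt]
  intro x
  by_cases h : x ∈ Icc (1 / 32 : ℝ) (3 / 4)
  · have hx : x ≠ 0 := by have := h.1; intro h0; rw [h0] at this; norm_num at this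
    have hx1 : 1 - x ≠ 0 := by have := h.2; intro h0; linarith
    have hcx : c * x ≠ 0 := mul_ne_zero hc.ne' hx
    unfold w0f
    refine (lam_smooth.contDiffAt).mul (((ContDiffAt.div ?_ ?_ ?_).sub (ContDiffAt.div ?_ ?_ ?_)).sub
      (ContDiffAt.div ?_ ?_ ?_))
    · exact contDiffAt_const
    · exact contDiffAt_const.mul contDiffAt_id
    · exact hcx
    · exact contDiffAt_const
    · exact contDiffAt_id
    · exact hx
    · exact contDiffAt_const
    · exact contDiffAt_const.sub contDiffAt_id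
    · exact hx1
  · have hev : w0f c =ᶠ[𝓝 x] fun _ => 0 := by
      filter_upwards [isClosed_Icc.isOpen_compl.mem_nhds h] with y hy using w0f_supp c hy
    exact contDiffAt_const.congr_of_eventuallyEq hev

lemma w0f_pos {c : ℝ} (hc : 0 < c) (x : ℝ) : 0 < 1 + x * (1 - x) * w0f c x := by
  by_cases h : x ∈ Icc (1 / 32 : ℝ) (3 / 4)
  · have hx : 0 < x := by have := h.1; linarith
    have hx1 : 0 < 1 - x := by have := h.2; linarith
    have e : 1 + x * (1 - x) * w0f c x = (1 - lam x) + lam x * ((1 - x) / c) := by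
      unfold w0f
      field_simp
      ring
    rw [e]
    have h1 := lam_nonneg x
    have h2 := lam_le_one x
    have h3 : 0 < (1 - x) / c := div_pos hx1 hc
    rcases h2.lt_or_eq with h4 | h4
    · have : 0 ≤ lam x * ((1 - x) / c) := mul_nonneg h1 h3.le
      linarith
    · rw [h4]; linarith
  · rw [w0f_supp c h]; norm_num

/-! ### the recursion -/

/-- the truncated formal solution. -/
def Wf (w0 : ℝ → ℝ) : ℕ → ℝ → ℝ → ℝ
  | 0 => fun _ x => w0 x
  | M + 1 => fun t x => Wf w0 M t x +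
      t ^ (M + 1) * (-((dt^[M] (resid (Wf w0 M))) 0 x) / (M + 1).factorial)

/-- positivity near `t = 0`. -/
lemma pos_near {w : ℝ → ℝ → ℝ} (hw : SmU univ w)
    (hsupp : ∀ t x, x ∉ Icc (1 / 32 : ℝ) (3 / 4) → w t x = 0) (hP : ∀ x, 0 < Pw w 0 x) :
    ∃ s0 > 0, ∃ c1 > 0, ∀ t ∈ Ioo (-s0) s0, ∀ x, c1 ≤ Pw w t x := by
  have hcont : Continuous fun p : ℝ × ℝ => Pw w p.1 p.2 := by
    have := (SmU.Pw hw).continuousOn
    rwa [← continuousOn_univ]
  have hK : IsCompact (Icc (1 / 32 : ℝ) (3 / 4)) := isCompact_Icc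
  have hne : (Icc (1 / 32 : ℝ) (3 / 4)).Nonempty := ⟨1 / 32, by norm_num⟩
  have hc0 : Continuous fun x : ℝ => Pw w 0 x := hcont.comp (by fun_prop : Continuous fun x : ℝ => ((0 : ℝ), x))
  obtain ⟨x0, hx0, hmin⟩ := hK.exists_isMinOn hne hc0.continuousOn
  set c0 := Pw w 0 x0 with hc0'
  have hc0pos : 0 < c0 := hP x0
  have hopen : IsOpen {p : ℝ × ℝ | c0 / 2 < Pw w p.1 p.2} := isOpen_lt continuous_const hcont
  have hsub : ({(0 : ℝ)} : Set ℝ) ×ˢ Icc (1 / 32 : ℝ) (3 / 4) ⊆ {p : ℝ × ℝ | c0 / 2 < Pw w p.1 p.2} := by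
    rintro ⟨t, x⟩ ⟨ht, hx⟩
    simp only [mem_singleton_iff] at ht
    subst ht
    have : c0 ≤ Pw w 0 x := hmin hx
    simp only [mem_setOf_eq]; linarith
  obtain ⟨u, v, hu, _, h0u, hKv, huv⟩ := generalized_tube_lemma isCompact_singleton hK hopen hsub
  obtain ⟨s0, hs0, hball⟩ := Metric.isOpen_iff.1 hu 0 (h0u rfl)
  refine ⟨s0, hs0, min (c0 / 2) 1, lt_min (by linarith) one_pos, fun t ht x => ?_⟩
  by_cases hx : x ∈ Icc (1 / 32 : ℝ) (3 / 4)
  · have htu : t ∈ u := hball (by rw [Metric.mem_ball, Real.dist_eq, sub_zero, abs_lt]; exact ht)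
    have := huv (mk_mem_prod htu (hKv hx))
    simp only [mem_setOf_eq] at this
    exact (min_le_left _ _).trans this.le
  · have : Pw w t x = 1 := by simp only [Pw]; rw [hsupp t x hx]; ring
    rw [this]; exact min_le_right _ _

/-- invariant of the recursion. -/
structure Inv (w : ℝ → ℝ → ℝ) (M : ℕ) : Prop where
  sm : SmU univ w
  supp : ∀ t x, x ∉ Icc (1 / 32 : ℝ) (3 / 4) → w t x = 0
  pos0 : ∀ x, 0 < Pw w 0 x
  van : ∀ j < M, ∀ x, (dt^[j] (resid w)) 0 x = 0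

lemma isOpen_V : IsOpen ((Icc (1 / 32 : ℝ) (3 / 4))ᶜ) := isClosed_Icc.isOpen_compl

lemma Inv.resid_zero {w : ℝ → ℝ → ℝ} (hs : ∀ t x, x ∉ Icc (1 / 32 : ℝ) (3 / 4) → w t x = 0)
    (j : ℕ) {t x : ℝ} (hx : x ∉ Icc (1 / 32 : ℝ) (3 / 4)) : (dt^[j] (resid w)) t x = 0 := by
  refine iter_dt_zero isOpen_V isOpen_univ (J := univ) ?_ j (t, x) ⟨mem_univ _, hx⟩
  exact resid_zero_of_zero (isOpen_univ.prod isOpen_V) fun p hp => hs _ _ hp.2

/-- the residual of the invariant functions is `O(t^M)`. -/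
lemma Inv.ord {w : ℝ → ℝ → ℝ} {M : ℕ} (h : Inv w M) {s0 c1 s a b : ℝ} (hs0 : 0 < s0)
    (hc1 : 0 < c1) (hpos : ∀ t ∈ Ioo (-s0) s0, ∀ x, c1 ≤ Pw w t x) (hs : s < s0) :
    Ord s (Ioo a b) M (resid w) := by
  have hR : SmU (Slab s0) (resid w) :=
    (h.sm.mono (subset_univ _)).resid (isOpen_slab s0)
      fun p hp => (hc1.trans_le (hpos p.1 hp.1 p.2)).ne'
  refine (ord_Rem (a := a) (b := b) hs0 hs M hR).congr isOpen_Ioo ?_
  rintro ⟨t, x⟩ _
  simp only [Rem]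
  rw [Finset.sum_eq_zero, sub_zero]
  intro j hj
  rw [h.van j (Finset.mem_range.1 hj) x]; simp

lemma Inv.step {w : ℝ → ℝ → ℝ} {M : ℕ} (h : Inv w M) :
    Inv (fun t x => w t x + t ^ (M + 1) *
      (-((dt^[M] (resid w)) 0 x) / (M + 1).factorial)) (M + 1) := by
  obtain ⟨s0, hs0, c1, hc1, hpos⟩ := pos_near h.sm h.supp h.pos0
  have hU := isOpen_slab s0
  have hR : SmU (Slab s0) (resid w) :=
    (h.sm.mono (subset_univ _)).resid hU fun p hp => (hc1.trans_le (hpos p.1 hp.1 p.2)).ne'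
  set A : ℝ → ℝ := fun x => -((dt^[M] (resid w)) 0 x) / (M + 1).factorial with hA
  have hAs : ContDiff ℝ (⊤ : ℕ∞) A := ((coeff_smooth hs0 hR M).neg).div_const _
  have hA0 : ∀ x, x ∉ Icc (1 / 32 : ℝ) (3 / 4) → A x = 0 := by
    intro x hx
    simp only [hA]
    rw [Inv.resid_zero h.supp M hx]; simp
  set w' : ℝ → ℝ → ℝ := fun t x => w t x + t ^ (M + 1) * A x with hw'
  have sm' : SmU univ w' := h.sm.add ((smU_tpow _).mul (smU_of_x hAs))
  have supp' : ∀ t x, x ∉ Icc (1 / 32 : ℝ) (3 / 4) → w' t x = 0 := by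
    intro t x hx
    simp only [hw']; rw [h.supp t x hx, hA0 x hx]; simp
  have pos0' : ∀ x, 0 < Pw w' 0 x := by
    intro x
    have : Pw w' 0 x = Pw w 0 x := by simp [Pw, hw']
    rw [this]; exact h.pos0 x
  refine ⟨sm', supp', pos0', ?_⟩
  obtain ⟨s0', hs0', c1', hc1', hpos'⟩ := pos_near sm' supp' pos0'
  have hR' : SmU (Slab s0') (resid w') :=
    (sm'.mono (subset_univ _)).resid (isOpen_slab s0')
      fun p hp => (hc1'.trans_le (hpos' p.1 hp.1 p.2)).ne'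
  intro j hj x
  by_cases hx : x ∈ Icc (1 / 32 : ℝ) (3 / 4)
  swap
  · exact Inv.resid_zero supp' j hx
  -- main part
  set s := min s0 s0' / 2 with hs
  have hm : 0 < min s0 s0' := lt_min hs0 hs0'
  have hspos : 0 < s := by rw [hs]; linarith
  have hss0 : s < s0 := by have := min_le_left s0 s0'; rw [hs]; linarith
  have hss0' : s < s0' := by have := min_le_right s0 s0'; rw [hs]; linarith
  have hI : IsOpen (Ioo (-1 : ℝ) 2) := isOpen_Ioo
  have hIb : Ioo (-1 : ℝ) 2 ⊆ Icc (-1) 2 := Ioo_subset_Icc_self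
  have ow : Ord s (Ioo (-1 : ℝ) 2) 0 w := ord0_of_smU hs0 hss0 (h.sm.mono (subset_univ _))
  have ow' : Ord s (Ioo (-1 : ℝ) 2) 0 w' := ord0_of_smU hs0' hss0' (sm'.mono (subset_univ _))
  set c := min c1 c1' with hc
  have hcpos : 0 < c := lt_min hc1 hc1'
  have hPw : ∀ t ∈ Ioo 0 s, ∀ x ∈ Ioo (-1 : ℝ) 2, c ≤ Pw w t x := fun t ht x _ =>
    (min_le_left _ _).trans (hpos t ⟨by linarith [ht.1], ht.2.trans hss0⟩ x)
  have hPw' : ∀ t ∈ Ioo 0 s, ∀ x ∈ Ioo (-1 : ℝ) 2, c ≤ Pw w' t x := fun t ht x _ =>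
    (min_le_right _ _).trans (hpos' t ⟨by linarith [ht.1], ht.2.trans hss0'⟩ x)
  have odiff : Ord s (Ioo (-1 : ℝ) 2) (M + 1) (fun t x => w' t x - w t x) := by
    have h1 : Ord s (Ioo (-1 : ℝ) 2) (M + 1) (fun t x => t ^ (M + 1) * A x) := by
      have := (ord_tpow (s := s) hI (M + 1)).mul hI (ord_of_x' (s := s) (a := -1) (b := 2) hAs)
      simpa using this
    refine h1.congr hI ?_
    rintro ⟨t, x⟩ _; simp [hw']
  have oD := ord_dXdXSop_sub hI hIb ow' ow hcpos hPw' hPw odiff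
  have oRem := ord_Rem (a := -1) (b := 2) hs0 hss0 (M + 1) hR
  have oR' : Ord s (Ioo (-1 : ℝ) 2) (M + 1) (resid w') := by
    refine (oRem.sub hI oD).congr hI ?_
    rintro ⟨t, x⟩ hp
    have hdom := isOpen_dom (s := s) hI
    have e1 : Rem (M + 1) (resid w) t x = resid w t x + (M + 1) * t ^ M * A x := by
      simp only [Rem]
      rw [Finset.sum_range_succ, Finset.sum_eq_zero]
      · simp only [hA]
        rw [Nat.factorial_succ]
        have h1 : ((M.factorial : ℕ) : ℝ) ≠ 0 := by exact_mod_cast M.factorial_ne_zero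
        have h2 : ((M : ℝ) + 1) ≠ 0 := by positivity
        push_cast
        field_simp
        ring
      · intro j hj
        rw [h.van j (Finset.mem_range.1 hj) x]; simp
    have e2 : dt w' t x = dt w t x + (M + 1) * t ^ M * A x := by
      have h1 : HasDerivAt (fun r => w r x) (dt w t x) t :=
        h.sm.hdt isOpen_univ (mem_univ _)
      have h2 : HasDerivAt (fun r : ℝ => r ^ (M + 1) * A x) (((M + 1 : ℕ) : ℝ) * t ^ M * A x) t := by
        have := (hasDerivAt_pow (M + 1) t).mul_const (A x)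
        simpa using this
      have h3 := (h1.add h2).deriv
      have h4 : dt w' t x = dt w t x + ((M + 1 : ℕ) : ℝ) * t ^ M * A x := h3
      rw [h4]; push_cast; ring
    simp only
    rw [e1]
    simp only [resid]
    rw [e2]; ring
  obtain ⟨C, _, hC⟩ := (oR'.bd 0)
  have hxI : x ∈ Ioo (-1 : ℝ) 2 := ⟨by linarith [hx.1], by linarith [hx.2]⟩
  exact vanish_of_bd hs0' hspos hR' (fun t ht => hC t ht x hxI) j hj

lemma Wf_inv {w0 : ℝ → ℝ} (h0 : Inv (fun _ x => w0 x) 0) : ∀ M : ℕ, Inv (Wf w0 M) M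
  | 0 => h0
  | M + 1 => (Wf_inv h0 M).step


/-- coefficients. -/
def af (w0 : ℝ → ℝ) : ℕ → ℝ → ℝ
  | 0 => w0
  | j + 1 => fun x => -((dt^[j] (resid (Wf w0 j))) 0 x) / (j + 1).factorial

/-- `w^(M) = Σ_{j ≤ M} t^j a_j` -/
def wM (a : ℕ → ℝ → ℝ) (M : ℕ) : ℝ → ℝ → ℝ := fun t x => ∑ j ∈ Finset.range (M + 1), t ^ j * a j x

lemma wM_eq (w0 : ℝ → ℝ) : ∀ M : ℕ, wM (af w0) M = Wf w0 M
  | 0 => by funext t x; simp [wM, af, Wf]
  | M + 1 => by
    funext t x
    have h1 := congrFun (congrFun (wM_eq w0 M) t) x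
    simp only [wM] at h1
    simp only [wM, Wf]
    rw [Finset.sum_range_succ, h1]
    rfl

lemma wM_sm {a : ℕ → ℝ → ℝ} (ha : ∀ j, ContDiff ℝ (⊤ : ℕ∞) (a j)) (M : ℕ) :
    SmU univ (wM a M) := by
  unfold SmU wM
  exact ContDiffOn.sum fun j _ => (smU_tpow j).mul (smU_of_x (ha j))


/-- **the formal outer solution.** -/
theorem formal {c : ℝ} (hc : 0 < c) : ∃ a : ℕ → ℝ → ℝ, (∀ j, ContDiff ℝ (⊤ : ℕ∞) (a j)) ∧
    (∀ j x, x ∉ Icc (1 / 32 : ℝ) (3 / 4) → a j x = 0) ∧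
    (∀ x ∈ Icc (1 / 16 : ℝ) (1 / 2), a 0 x = 1 / (c * x) - 1 / x - 1 / (1 - x)) ∧
    (∀ x, 0 < 1 + x * (1 - x) * a 0 x) ∧
    ∀ M : ℕ, ∃ s > 0, ∃ c1 > 0, (∀ t ∈ Ioo (-s) s, ∀ x, c1 ≤ Pw (wM a M) t x) ∧
      Ord s (Ioo (-1) 2) M (resid (wM a M)) := by
  have h0 : Inv (fun _ x => w0f c x) 0 := by
    refine ⟨smU_of_x (w0f_smooth hc), fun _ x hx => w0f_supp c hx, fun x => ?_,
      fun j hj => absurd hj (Nat.not_lt_zero j)⟩
    exact w0f_pos hc x
  refine ⟨af (w0f c), ?_, ?_, fun x hx => w0f_eq c hx, fun x => w0f_pos hc x, ?_⟩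
  · intro j
    rcases j with _ | j
    · exact w0f_smooth hc
    · have hI := Wf_inv h0 j
      obtain ⟨s0, hs0, c1, hc1, hpos⟩ := pos_near hI.sm hI.supp hI.pos0
      have hR : SmU (Slab s0) (resid (Wf (w0f c) j)) :=
        (hI.sm.mono (subset_univ _)).resid (isOpen_slab s0)
          fun p hp => (hc1.trans_le (hpos p.1 hp.1 p.2)).ne'
      exact ((coeff_smooth hs0 hR j).neg).div_const _
  · intro j x hx
    rcases j with _ | j
    · exact w0f_supp c hx
    · have hI := Wf_inv h0 j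
      simp only [af]
      rw [Inv.resid_zero hI.supp j hx]; simp
  · intro M
    have hI := Wf_inv h0 M
    obtain ⟨s0, hs0, c1, hc1, hpos⟩ := pos_near hI.sm hI.supp hI.pos0
    rw [wM_eq]
    refine ⟨s0 / 2, by linarith, c1, hc1, fun t ht x => hpos t ⟨by linarith [ht.1], by
      linarith [ht.2]⟩ x, hI.ord hs0 hc1 hpos (by linarith)⟩

end Crest.Agent.R213.D
end
private theorem rz_e8faffc40d : type_of% @_root_.Crest.Agent.R213.D.Wf.eq_def := @_root_.Crest.Agent.R213.D.Wf.eq_def -- L114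
private theorem rz_ba55e08f0b : type_of% @_root_.Crest.Agent.R213.D.Wf.eq_1 := @_root_.Crest.Agent.R213.D.Wf.eq_1 -- L114
private theorem rz_3888684c78 : type_of% @_root_.Crest.Agent.R213.D.af.eq_1 := @_root_.Crest.Agent.R213.D.af.eq_1 -- L276
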